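import Vale.Agent.P042.WG.G6.Shell
set_option autoImplicit false

/-! Block G6: local weights at one large prime with a good root of multiplicity `m`. -/

namespace Vale.Agent.P042.WG

open Polynomial Finset
open Vale.Agent.P042.WA (ep)
open Vale.Agent.P042.WA.W5 (vl TT LocP TT_one TT_high TT_zero mn_vl_zero mn_vl_one mn_vl_succ
  GG_zero_le cls cls_zero cls_per cls_nonneg cls_le norm_GG_le)

section large

variable {h : ℤ[X]} {p m : ℕ} [Fact p.Prime] {r : ℕ → ℤ} {w : ℝ} {ν : ZMod p → ℝ}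

lemma GGm_im (hR : RootM h p m r) (hm : 1 ≤ m) (hmp : m < p) {ζ : ZMod p} (hζ : ζ ^ m = -1) (a : ℤ)
    (ha : IsCoprime a (p : ℤ)) (j : ℕ) : ∀ s i : ℕ, 1 ≤ i → j ≤ m * (i + s) →
    (WA.W5.GG h p a i j (r i)).im = 0 := by
  have hp : p.Prime := Fact.out
  intro s
  induction s with
  | zero =>
    intro i _ hj
    rw [GGm_one hR hp a i j hj, Complex.one_im]
  | succ s ih =>
    intro i hi hj
    rcases Nat.lt_or_ge (m * i) j with h1 | h1
    · obtain ⟨c, _, hc⟩ := GG_rec hR hm hmp a ha i j hi h1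
      rw [hc, Complex.add_im, Complex.div_natCast_im,
        ih (i + 1) (by omega) (by rw [show i + 1 + s = i + (s + 1) by ring]; exact hj), zero_div,
        add_zero]
      split_ifs
      · exact SS_im m hm c ζ hζ
      · exact Complex.zero_im
    · rw [GGm_one hR hp a i j h1, Complex.one_im]

lemma GGm_norm (hR : RootM h p m r) (hm : 1 ≤ m) {k : ℕ} (hmk : m ≤ k) (hkp : k < p) (a : ℤ)
    (ha : IsCoprime a (p : ℤ)) (j : ℕ) : ∀ s i : ℕ, 1 ≤ i → m * (i + s) < j → j ≤ m * (i + s + 1) →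
    ‖WA.W5.GG h p a i j (r i)‖ ≤ (k * Real.sqrt p + 2) / p / (p : ℝ) ^ s := by
  have hp : p.Prime := Fact.out
  have hp0 : (0 : ℝ) < p := by exact_mod_cast hp.pos
  intro s
  induction s with
  | zero =>
    intro i hi h1 h2
    obtain ⟨c, hc1, hc⟩ := GG_rec hR hm (by omega) a ha i j hi (by simpa using h1)
    rw [hc, GGm_one hR hp a (i + 1) j (by simpa using h2)]
    refine (norm_add_le _ _).trans ?_
    rw [norm_div, norm_one, Complex.norm_natCast, pow_zero, div_one]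
    have h3 : ‖(if j = m * i + 1 then SS p m c else 0)‖ ≤ (k * Real.sqrt p + 1) / p := by
      split_ifs
      · exact SS_norm m k hm hmk hkp c hc1
      · rw [norm_zero]; positivity
    calc _ ≤ (k * Real.sqrt p + 1) / p + 1 / p := add_le_add h3 le_rfl
      _ = _ := by ring
  | succ s ih =>
    intro i hi h1 h2
    have h4 : m * i + m * (s + 1) < j := by rw [← mul_add]; exact h1
    have h5 : 1 * (s + 1) ≤ m * (s + 1) := Nat.mul_le_mul_right _ hm
    obtain ⟨c, hc1, hc⟩ := GG_rec hR hm (by omega) a ha i j hi (by omega)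
    rw [hc, if_neg (by omega), zero_add, norm_div, Complex.norm_natCast, pow_succ, ← div_div]
    apply div_le_div_of_nonneg_right _ hp0.le
    apply ih (i + 1) (by omega)
    · rw [show i + 1 + s = i + (s + 1) by ring]; exact h1
    · rw [show i + 1 + s + 1 = i + (s + 1) + 1 by ring]; exact h2

/-- the partial sums -/
lemma vlm_partial
    (hνd : ∀ x : ZMod p, (derivative (h.map (Int.castRingHom (ZMod p)))).eval x = 0 → ν x = 0)
    (a : ℤ) (ha : IsCoprime a (p : ℤ)) (j : ℕ) (hj : 2 ≤ j) (n : ℕ) :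
    ∑ i ∈ Finset.range (n + 1 + 1), PS463.mn h (vl p ν r w i) (p ^ i) (p ^ j) a =
      ((w ^ (n + 1) : ℝ) : ℂ) * WA.W5.GG h p a (n + 1) j (r (n + 1)) +
      ((1 - w : ℝ) : ℂ) * ∑ i ∈ Finset.Ico 1 (n + 1), ((w ^ i : ℝ) : ℂ) * WA.W5.GG h p a i j (r i) := by
  induction n with
  | zero =>
    rw [Finset.sum_range_succ, Finset.sum_range_one, mn_vl_zero, mn_vl_one,
      TT_high hνd a ha j hj]
    simp
  | succ n ih =>
    rw [Finset.sum_range_succ, ih, mn_vl_succ, Finset.sum_Ico_succ_top (show 1 ≤ n + 1 by omega)]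
    push_cast
    ring

lemma vlm_small (hR : RootM h p m r) (hm : 1 ≤ m) {k : ℕ} (hmk : m ≤ k) (hkp : k < p) (a : ℤ)
    (ha : IsCoprime a (p : ℤ)) (j : ℕ) (hw0 : 0 ≤ w) (hpw : 2 ≤ (p : ℝ) * w) :
    ∀ n s : ℕ, m * (n + 1 + s) < j → j ≤ m * (n + 1 + s + 1) →
    ‖∑ i ∈ Finset.Ico 1 (n + 1 + 1), ((w ^ i : ℝ) : ℂ) * WA.W5.GG h p a i j (r i)‖ ≤
      2 * ((k * Real.sqrt p + 2) / p) * w ^ (n + 1) / (p : ℝ) ^ s := by
  have hp : p.Prime := Fact.out
  have hp0 : (0 : ℝ) < p := by exact_mod_cast hp.pos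
  set κ := (k * Real.sqrt p + 2) / p with hκ
  have hκ0 : 0 ≤ κ := by rw [hκ]; positivity
  intro n
  induction n with
  | zero =>
    intro s h1 h2
    rw [show Finset.Ico 1 (0 + 1 + 1) = {1} by rfl, Finset.sum_singleton, norm_mul,
      Complex.norm_real, Real.norm_of_nonneg (by positivity), zero_add, pow_one]
    have h3 := GGm_norm hR hm hmk hkp a ha j s 1 le_rfl (by simpa using h1) (by simpa using h2)
    calc w * ‖WA.W5.GG h p a 1 j (r 1)‖ ≤ w * (κ / (p : ℝ) ^ s) := mul_le_mul_of_nonneg_left h3 hw0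
      _ = κ * w / (p : ℝ) ^ s := by ring
      _ ≤ 2 * κ * w / (p : ℝ) ^ s := by
          apply div_le_div_of_nonneg_right _ (by positivity)
          nlinarith [mul_nonneg hκ0 hw0]
  | succ n ih =>
    intro s h1 h2
    rw [Finset.sum_Ico_succ_top (by omega)]
    refine (norm_add_le _ _).trans ?_
    have h3 := ih (s + 1) (by rw [show n + 1 + (s + 1) = n + 1 + 1 + s by ring]; exact h1)
      (by rw [show n + 1 + (s + 1) + 1 = n + 1 + 1 + s + 1 by ring]; exact h2)
    have h4 := GGm_norm hR hm hmk hkp a ha j s (n + 1 + 1) (by omega) h1 h2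
    rw [norm_mul, Complex.norm_real, Real.norm_of_nonneg (by positivity)]
    have h5 : w ^ (n + 1 + 1) * ‖WA.W5.GG h p a (n + 1 + 1) j (r (n + 1 + 1))‖ ≤
        w ^ (n + 1 + 1) * (κ / (p : ℝ) ^ s) := mul_le_mul_of_nonneg_left h4 (by positivity)
    refine (add_le_add h3 h5).trans ?_
    have h6 : 2 * κ * w ^ (n + 1) / (p : ℝ) ^ (s + 1) ≤ w ^ (n + 1 + 1) * κ / (p : ℝ) ^ s := by
      rw [pow_succ (p : ℝ) s, div_le_div_iff₀ (by positivity) (by positivity), pow_succ w (n + 1)]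
      have h7 : 0 ≤ κ * w ^ (n + 1) * (p : ℝ) ^ s := by positivity
      nlinarith
    calc _ ≤ w ^ (n + 1 + 1) * κ / (p : ℝ) ^ s + w ^ (n + 1 + 1) * (κ / (p : ℝ) ^ s) :=
          add_le_add h6 le_rfl
      _ = _ := by ring

/-- the sum in terms of the first level `t + 1` where the class means are one -/
lemma vlm_full (hR : RootM h p m r) (hm : 1 ≤ m)
    (hνd : ∀ x : ZMod p, (derivative (h.map (Int.castRingHom (ZMod p)))).eval x = 0 → ν x = 0)
    (a : ℤ) (ha : IsCoprime a (p : ℤ)) (j : ℕ) (hj : 2 ≤ j) (t : ℕ) (ht : m * t < j)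
    (ht2 : j ≤ m * (t + 1)) :
    ∑ i ∈ Finset.range (j + 1), PS463.mn h (vl p ν r w i) (p ^ i) (p ^ j) a =
      ((w ^ (t + 1) : ℝ) : ℂ) +
      ((1 - w : ℝ) : ℂ) * ∑ i ∈ Finset.Ico 1 (t + 1), ((w ^ i : ℝ) : ℂ) * WA.W5.GG h p a i j (r i) := by
  have hp : p.Prime := Fact.out
  have htj : t < j := lt_of_le_of_lt (Nat.le_mul_of_pos_left t hm) ht
  -- the statement for every upper limit
  have key : ∀ n : ℕ, t ≤ n → ∑ i ∈ Finset.range (n + 1 + 1), PS463.mn h (vl p ν r w i) (p ^ i) (p ^ j) a =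
      ((w ^ (t + 1) : ℝ) : ℂ) +
      ((1 - w : ℝ) : ℂ) * ∑ i ∈ Finset.Ico 1 (t + 1), ((w ^ i : ℝ) : ℂ) * WA.W5.GG h p a i j (r i) := by
    intro n hn
    induction n, hn using Nat.le_induction with
    | base =>
      rw [vlm_partial hνd a ha j hj, GGm_one hR hp a (t + 1) j ht2, mul_one]
    | succ n hn ih =>
      rw [Finset.sum_range_succ, ih, mn_vl_succ]
      have h1 : j ≤ m * (n + 1) := ht2.trans (Nat.mul_le_mul_left _ (by omega))
      have h2 : j ≤ m * (n + 2) := ht2.trans (Nat.mul_le_mul_left _ (by omega))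
      rw [GGm_one hR hp a (n + 1) j h1, GGm_one hR hp a (n + 2) j h2, sub_self, mul_zero, add_zero]
  have h3 := key (j - 1) (by omega)
  rwa [show j - 1 + 1 + 1 = j + 1 by omega] at h3

theorem locP_large_m (hR : RootM h p m r) (hm : 1 ≤ m) {ζ : ZMod p} (hζ : ζ ^ m = -1) (k : ℕ)
    (hmk : m ≤ k) (hk : h.natDegree ≤ k) (hkp : k < p)
    (hnc : NC h p) (K : ℝ) (hK : 0 ≤ K) (hKp : K + 1 ≤ p)
    (hν0 : ∀ x, 0 ≤ ν x) (hνK : ∀ x, ν x ≤ K) (hs : ∑ x, ν x = p)
    (hνd : ∀ x : ZMod p, (derivative (h.map (Int.castRingHom (ZMod p)))).eval x = 0 → ν x = 0)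
    (hνim : ∀ a : ZMod p,
      (∑ x, (ν x : ℂ) * ep p (a * (h.map (Int.castRingHom (ZMod p))).eval x)).im = 0)
    (hνb : ∀ a : ZMod p, a ≠ 0 →
      ‖∑ x, (ν x : ℂ) * ep p (a * (h.map (Int.castRingHom (ZMod p))).eval x)‖ ≤
        K * (p : ℝ) ^ (3 / 4 : ℝ))
    {c1 : ℝ} (hw0 : 0 ≤ w) (hw1 : w ≤ 1) (hpw : 2 ≤ (p : ℝ) * w)
    (hw : (p : ℝ) ^ c1 * w ≤ 1 / 2) (hKw : K * (p : ℝ) ^ (3 / 4 : ℝ) / p ≤ w)
    (hκw : 2 * ((k * Real.sqrt p + 2) / p) ≤ w)
    (hnum : k * Real.sqrt p / p + (p : ℝ) ^ c1 * (K * (p : ℝ) ^ (3 / 4 : ℝ) / p + w +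
      k * Real.sqrt p / p) + 4 * ((p : ℝ) ^ c1 * w) ^ 2 ≤ 1) :
    LocP h p (vl p ν r w) 2 1 c1 := by
  have hp : p.Prime := Fact.out
  have hp1 : (1 : ℝ) ≤ p := by exact_mod_cast hp.one_lt.le
  have hp2 : (2 : ℝ) ≤ p := by exact_mod_cast hp.two_le
  have hp0 : (0 : ℝ) < p := by linarith
  set κ := K * (p : ℝ) ^ (3 / 4 : ℝ) / p with hκ
  set M := k * Real.sqrt p / p with hM
  have hκ0 : 0 ≤ κ := by rw [hκ]; positivity
  have hM0 : 0 ≤ M := by rw [hM]; positivity
  have hmp : m < p := by omega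
  have hTim : ∀ a : ℤ, (TT h p ν a 1).im = 0 := by
    intro a
    rw [TT_one, Complex.div_natCast_im, hνim, zero_div]
  have hTb : ∀ a : ℤ, IsCoprime a (p : ℤ) → ‖TT h p ν a 1‖ ≤ κ := by
    intro a ha
    rw [TT_one, norm_div, Complex.norm_natCast, hκ]
    apply div_le_div_of_nonneg_right _ hp0.le
    apply hνb
    intro h0
    rw [ZMod.intCast_zmod_eq_zero_iff_dvd] at h0
    have h2 := ha.symm.isUnit_of_dvd' dvd_rfl h0
    rw [Int.isUnit_iff] at h2
    have := hp.two_le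
    omega
  have hpart1 : ∀ a : ℤ, IsCoprime a (p : ℤ) →
      ∑ i ∈ Finset.range (1 + 1), PS463.mn h (vl p ν r w i) (p ^ i) (p ^ 1) a =
      ((1 - w : ℝ) : ℂ) * TT h p ν a 1 + (w : ℂ) := by
    intro a _
    rw [Finset.sum_range_succ, Finset.sum_range_one, mn_vl_zero, mn_vl_one,
      GGm_one hR hp a 1 1 (by omega)]
    ring
  -- the level `t`
  have hex : ∀ j : ℕ, 1 ≤ j → ∃ t, m * t < j ∧ j ≤ m * (t + 1) := by
    intro j hj
    refine ⟨(j - 1) / m, ?_, ?_⟩
    · have := Nat.mul_div_le (j - 1) m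
      omega
    · have := Nat.lt_mul_div_succ (j - 1) (show 0 < m by omega)
      omega
  refine ⟨fun x => rfl, ?_, ?_, ?_, ?_, ?_, ?_⟩
  · intro i x
    match i with
    | 0 => rfl
    | 1 =>
      have h1 : ∀ x : ℤ, vl p ν r w 1 x = (1 - w) * ν (x : ZMod p) +
        1 * (w * cls p 1 (r 1) x + (-1) * cls p 0 (r 0) x) := fun x => rfl
      rw [h1, h1, cls_per p 1 1 le_rfl, cls_per p 0 1 (by omega)]
      congr 3
      push_cast
      simp
    | (i + 2) =>
      have h1 : ∀ x : ℤ, vl p ν r w (i + 2) x = w ^ (i + 2) * cls p (i + 2) (r (i + 2)) x +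
        (-(w ^ (i + 2))) * cls p (i + 1) (r (i + 1)) x := fun x => rfl
      rw [h1, h1, cls_per p (i + 2) (i + 2) le_rfl, cls_per p (i + 1) (i + 2) (by omega)]
  · intro i x
    match i with
    | 0 =>
      have h1 : vl p ν r w 0 x = 1 := rfl
      rw [h1]
      simp
    | 1 =>
      have h1 : vl p ν r w 1 x = (1 - w) * ν (x : ZMod p) +
        1 * (w * cls p 1 (r 1) x + (-1) * cls p 0 (r 0) x) := rfl
      rw [h1, cls_zero]
      have h2 := hν0 (x : ZMod p)
      have h3 := hνK (x : ZMod p)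
      have h4 := cls_nonneg p 1 (r 1) x
      have h5 := cls_le p 1 (r 1) x
      rw [pow_one] at h5
      have h6 : (1 - w) * ν (x : ZMod p) ≤ K := by
        calc _ ≤ 1 * K := mul_le_mul (by linarith) h3 h2 (by norm_num)
          _ = K := one_mul _
      have h7 : 0 ≤ (1 - w) * ν (x : ZMod p) := mul_nonneg (by linarith) h2
      have h8 : w * cls p 1 (r 1) x ≤ p := by
        calc _ ≤ 1 * (p : ℝ) := mul_le_mul hw1 h5 h4 (by norm_num)
          _ = p := one_mul _
      have h9 : 0 ≤ w * cls p 1 (r 1) x := mul_nonneg hw0 h4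
      push_cast
      rw [pow_one, abs_le]
      constructor <;> nlinarith
    | (i + 2) =>
      have h1 : vl p ν r w (i + 2) x = w ^ (i + 2) * cls p (i + 2) (r (i + 2)) x +
        (-(w ^ (i + 2))) * cls p (i + 1) (r (i + 1)) x := rfl
      rw [h1]
      have h1 := cls_nonneg p (i + 2) (r (i + 2)) x
      have h2 := cls_le p (i + 2) (r (i + 2)) x
      have h3 := cls_nonneg p (i + 1) (r (i + 1)) x
      have h4 := cls_le p (i + 1) (r (i + 1)) x
      have h5 : (p : ℝ) ^ (i + 1) ≤ (p : ℝ) ^ (i + 2) := pow_le_pow_right₀ hp1 (by omega)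
      have h6 : w ^ (i + 2) ≤ 1 := pow_le_one₀ hw0 hw1
      have h7 : 0 ≤ w ^ (i + 2) := by positivity
      have h8 : (p : ℝ) ^ (i + 2) ≤ (((p ^ (i + 2) : ℕ)) : ℝ) ^ 2 := by
        push_cast
        exact le_self_pow₀ (one_le_pow₀ hp1) (by omega)
      rw [show w ^ (i + 2) * cls p (i + 2) (r (i + 2)) x +
        -w ^ (i + 2) * cls p (i + 1) (r (i + 1)) x =
        w ^ (i + 2) * (cls p (i + 2) (r (i + 2)) x - cls p (i + 1) (r (i + 1)) x) by ring, abs_mul,
        abs_of_nonneg h7]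
      have h9 : |cls p (i + 2) (r (i + 2)) x - cls p (i + 1) (r (i + 1)) x| ≤ (p : ℝ) ^ (i + 2) := by
        rw [abs_le]; constructor <;> linarith
      calc _ ≤ 1 * (p : ℝ) ^ (i + 2) := mul_le_mul h6 h9 (abs_nonneg _) (by norm_num)
        _ ≤ _ := by rw [one_mul]; exact h8
  · intro i j hji a _
    match i with
    | 0 => omega
    | 1 =>
      have hj0 : j = 0 := by omega
      subst hj0
      rw [mn_vl_one, TT_zero ν hs, GGm_one hR hp a 1 0 (by omega), GGm_one hR hp a 0 0 (by omega)]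
      push_cast
      ring
    | (i + 2) =>
      have h1 : i + 1 ≤ m * (i + 1) := Nat.le_mul_of_pos_left _ hm
      have h2 : i + 2 ≤ m * (i + 2) := Nat.le_mul_of_pos_left _ hm
      rw [mn_vl_succ, GGm_one hR hp a (i + 2) j (by omega), GGm_one hR hp a (i + 1) j (by omega),
        sub_self, mul_zero]
  · intro j hj a ha
    rcases Nat.lt_or_ge 1 j with hj2 | hj1
    · obtain ⟨t, ht, ht2⟩ := hex j hj
      rw [vlm_full hR hm hνd a ha j hj2 t ht ht2, Complex.add_im, Complex.ofReal_im, zero_add,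
        Complex.im_ofReal_mul, Complex.im_sum]
      rw [Finset.sum_eq_zero, mul_zero]
      intro i hi
      rw [Finset.mem_Ico] at hi
      rw [Complex.im_ofReal_mul, GGm_im hR hm hmp hζ a ha j j i hi.1, mul_zero]
      calc j ≤ 1 * (i + j) := by omega
        _ ≤ m * (i + j) := Nat.mul_le_mul_right _ hm
    · have hj' : j = 1 := by omega
      subst hj'
      rw [hpart1 a ha, Complex.add_im, Complex.ofReal_im, Complex.im_ofReal_mul, hTim, mul_zero,
        add_zero]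
  · intro j hj a ha
    rcases Nat.lt_or_ge 1 j with hj2 | hj1
    · obtain ⟨t, ht, ht2⟩ := hex j hj
      rw [vlm_full hR hm hνd a ha j hj2 t ht ht2, Complex.add_re, Complex.ofReal_re,
        Complex.re_ofReal_mul]
      rcases Nat.eq_zero_or_pos t with h0 | hpos
      · subst h0
        simp only [zero_add, Finset.Ico_self, Finset.sum_empty, Complex.zero_re, mul_zero, add_zero]
        positivity
      · obtain ⟨n, rfl⟩ : ∃ n, t = n + 1 := ⟨t - 1, by omega⟩
        have h1 := vlm_small hR hm hmk hkp a ha j hw0 hpw n 0 (by simpa using ht) (by simpa using ht2)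
        rw [pow_zero, div_one] at h1
        set S := ∑ i ∈ Finset.Ico 1 (n + 1 + 1), ((w ^ i : ℝ) : ℂ) * WA.W5.GG h p a i j (r i)
        have h2 := (abs_le.1 ((Complex.abs_re_le_norm S).trans h1)).1
        have h3 : 2 * ((k * Real.sqrt p + 2) / p) * w ^ (n + 1) ≤ w * w ^ (n + 1) :=
          mul_le_mul_of_nonneg_right hκw (by positivity)
        have h4 : 0 ≤ 2 * ((k * Real.sqrt p + 2) / p) * w ^ (n + 1) := by positivity
        have h5 : -(w * w ^ (n + 1)) ≤ (1 - w) * S.re := by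
          rcases le_or_gt 0 S.re with h6 | h6
          · have : 0 ≤ (1 - w) * S.re := mul_nonneg (by linarith) h6
            have : 0 ≤ w * w ^ (n + 1) := by positivity
            linarith
          · have : 1 * S.re ≤ (1 - w) * S.re := mul_le_mul_of_nonpos_right (by linarith) h6.le
            linarith
        rw [pow_succ w (n + 1)]
        linarith
    · have hj' : j = 1 := by omega
      subst hj'
      rw [hpart1 a ha, Complex.add_re, Complex.ofReal_re, Complex.re_ofReal_mul]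
      have h1 := (abs_le.1 ((Complex.abs_re_le_norm _).trans (hTb a ha))).1
      nlinarith
  · intro j hj a ha
    have hM1 : ∀ c : ℤ, ‖WA.W5.GG h p a 0 j c‖ ≤ M := fun c => GG_zero_le k hk hkp hnc a ha j hj c
    have hTle : ‖TT h p ν a j‖ ≤ κ := by
      rcases Nat.lt_or_ge 1 j with hj2 | hj1
      · rw [TT_high hνd a ha j hj2, norm_zero]; exact hκ0
      · have hj' : j = 1 := by omega
        subst hj'
        exact hTb a ha
    obtain ⟨l, rfl⟩ : ∃ l, j = l + 1 := ⟨j - 1, by omega⟩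
    rw [Finset.sum_range_succ', Finset.sum_range_succ']
    set ρ := (p : ℝ) ^ c1 * w with hρ
    have hρ0 : 0 ≤ ρ := by positivity
    have h1 : ∑ i ∈ Finset.range l, ((p ^ (i + 1 + 1) : ℕ) : ℝ) ^ c1 *
        ‖PS463.mn h (vl p ν r w (i + 1 + 1)) (p ^ (i + 1 + 1)) (p ^ (l + 1)) a‖ ≤ 4 * ρ ^ 2 := by
      have h2 : ∀ i ∈ Finset.range l, ((p ^ (i + 1 + 1) : ℕ) : ℝ) ^ c1 *
          ‖PS463.mn h (vl p ν r w (i + 1 + 1)) (p ^ (i + 1 + 1)) (p ^ (l + 1)) a‖ ≤
          2 * ρ ^ 2 * (1 / 2 : ℝ) ^ i := by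
        intro i _
        rw [mn_vl_succ, norm_mul, Complex.norm_real, Real.norm_of_nonneg (by positivity)]
        have h3 : ((p ^ (i + 1 + 1) : ℕ) : ℝ) ^ c1 = ((p : ℝ) ^ c1) ^ (i + 2) := by
          push_cast
          rw [← Real.rpow_natCast, ← Real.rpow_natCast, ← Real.rpow_mul hp0.le,
            ← Real.rpow_mul hp0.le, mul_comm]
        have h4 : ‖WA.W5.GG h p a (i + 2) (l + 1) (r (i + 2)) -
            WA.W5.GG h p a (i + 1) (l + 1) (r (i + 1))‖ ≤ 2 := by
          refine (norm_sub_le _ _).trans ?_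
          have := norm_GG_le h p hp a (i + 2) (l + 1) (r (i + 2))
          have := norm_GG_le h p hp a (i + 1) (l + 1) (r (i + 1))
          linarith
        rw [h3, ← mul_assoc, ← mul_pow, ← hρ]
        calc ρ ^ (i + 2) * _ ≤ ρ ^ (i + 2) * 2 := mul_le_mul_of_nonneg_left h4 (by positivity)
          _ = 2 * ρ ^ 2 * ρ ^ i := by ring
          _ ≤ 2 * ρ ^ 2 * (1 / 2 : ℝ) ^ i := by
              apply mul_le_mul_of_nonneg_left _ (by positivity)
              exact pow_le_pow_left₀ hρ0 hw i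
      refine (Finset.sum_le_sum h2).trans ?_
      rw [← Finset.mul_sum]
      have h5 : ∑ i ∈ Finset.range l, (1 / 2 : ℝ) ^ i ≤ 2 := by
        have := geom_sum_eq (show (1 / 2 : ℝ) ≠ 1 by norm_num) l
        rw [this]
        have h6 : (0 : ℝ) ≤ (1 / 2) ^ l := by positivity
        rw [div_le_iff_of_neg (by norm_num)]
        linarith
      calc _ ≤ 2 * ρ ^ 2 * 2 := mul_le_mul_of_nonneg_left h5 (by positivity)
        _ = _ := by ring
    have h2 : ((p ^ (0 + 1) : ℕ) : ℝ) ^ c1 *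
        ‖PS463.mn h (vl p ν r w (0 + 1)) (p ^ (0 + 1)) (p ^ (l + 1)) a‖ ≤
        (p : ℝ) ^ c1 * (κ + w + M) := by
      rw [zero_add, pow_one]
      apply mul_le_mul_of_nonneg_left _ (by positivity)
      have h3 := mn_vl_one (h := h) (ν := ν) (r := r) (w := w) (l + 1) a
      rw [pow_one] at h3
      rw [h3]
      refine (norm_sub_le _ _).trans ?_
      refine add_le_add ((norm_add_le _ _).trans (add_le_add ?_ ?_)) (hM1 _)
      · rw [norm_mul, Complex.norm_real, Real.norm_of_nonneg (by linarith)]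
        calc (1 - w) * ‖TT h p ν a (l + 1)‖ ≤ 1 * κ :=
              mul_le_mul (by linarith) hTle (norm_nonneg _) (by norm_num)
          _ = κ := one_mul _
      · rw [norm_mul, Complex.norm_real, Real.norm_of_nonneg hw0]
        calc w * _ ≤ w * 1 := mul_le_mul_of_nonneg_left (norm_GG_le h p hp a _ _ _) hw0
          _ = w := mul_one _
    have h3 : ((p ^ 0 : ℕ) : ℝ) ^ c1 *
        ‖PS463.mn h (vl p ν r w 0) (p ^ 0) (p ^ (l + 1)) a‖ ≤ M := by
      rw [mn_vl_zero]
      simp only [pow_zero, Nat.cast_one, Real.one_rpow, one_mul]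
      exact hM1 _
    calc _ ≤ 4 * ρ ^ 2 + (p : ℝ) ^ c1 * (κ + w + M) + M := add_le_add (add_le_add h1 h2) h3
      _ ≤ 1 := by linarith

end large

end Vale.Agent.P042.WG
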