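import Vale.Agent.P042.WG.G6.Root
import Vale.Agent.P042.WG.G5.Main
set_option autoImplicit false

/-! Block G6: local weights at all large good primes. -/

namespace Vale.Agent.P042.WG

open Polynomial Finset
open Vale.Agent.P042.WA.W5 (LocP vl)

/-- the numerical conditions in terms of the 16th root -/
lemma numerX1 (K k x : ℝ) (hK : 0 ≤ K) (hk : 0 ≤ k) (hxL : K + 2 * k + 8 ≤ x) :
    2 ≤ x ^ 14 ∧ x⁻¹ ≤ 1 / 2 ∧ K * (x ^ 4)⁻¹ ≤ (x ^ 2)⁻¹ ∧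
    2 * k * x ^ 8 + 4 ≤ x ^ 14 := by
  have hx8 : 8 ≤ x := by linarith
  have hx1 : 1 ≤ x := by linarith
  have hx0 : 0 < x := by linarith
  have hKx : K ≤ x ^ 2 := by nlinarith
  refine ⟨?_, ?_, ?_, ?_⟩
  · calc (2 : ℝ) ≤ x := by linarith
      _ ≤ x ^ 14 := le_self_pow₀ hx1 (by norm_num)
  · rw [inv_le_comm₀ hx0 (by norm_num)]
    norm_num
    linarith
  · rw [show (x ^ 4)⁻¹ = (x ^ 2)⁻¹ * (x ^ 2)⁻¹ by rw [← mul_inv]; ring_nf, ← mul_assoc]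
    apply mul_le_of_le_one_left (by positivity)
    rw [← div_eq_mul_inv, div_le_one (by positivity)]
    exact hKx
  · have j2 : (1 : ℝ) ≤ x ^ 8 := one_le_pow₀ hx1
    calc 2 * k * x ^ 8 + 4 ≤ (2 * k + 4) * x ^ 8 := by nlinarith
      _ ≤ x * x ^ 8 := mul_le_mul_of_nonneg_right (by linarith) (by positivity)
      _ = x ^ 9 := by ring
      _ ≤ x ^ 14 := pow_le_pow_right₀ hx1 (by norm_num)

lemma numerX2 (K k x : ℝ) (hK : 0 ≤ K) (hk : 0 ≤ k) (hxL : K + 2 * k + 8 ≤ x) :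
    k * (x ^ 8)⁻¹ + x * (K * (x ^ 4)⁻¹ + (x ^ 2)⁻¹ + k * (x ^ 8)⁻¹) + 4 * x⁻¹ ^ 2 ≤ 1 := by
  have hx1 : 1 ≤ x := by linarith
  have hx0 : 0 < x := by linarith
  have i2 : 0 < x⁻¹ := by positivity
  have i3 : x⁻¹ ≤ 1 := inv_le_one_of_one_le₀ hx1
  have j1 : (x ^ 8)⁻¹ ≤ x⁻¹ := inv_anti₀ hx0 (le_self_pow₀ hx1 (by norm_num))
  have j2 : x * (x ^ 4)⁻¹ ≤ x⁻¹ := by
    have : x * (x ^ 4)⁻¹ = (x ^ 3)⁻¹ := by field_simp
    rw [this]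
    exact inv_anti₀ hx0 (le_self_pow₀ hx1 (by norm_num))
  have j3 : x * (x ^ 2)⁻¹ = x⁻¹ := by field_simp
  have j4 : x * (x ^ 8)⁻¹ ≤ x⁻¹ := by
    have : x * (x ^ 8)⁻¹ = (x ^ 7)⁻¹ := by field_simp
    rw [this]
    exact inv_anti₀ hx0 (le_self_pow₀ hx1 (by norm_num))
  have j6 : x⁻¹ ^ 2 ≤ x⁻¹ := by
    rw [pow_two]
    exact mul_le_of_le_one_left i2.le i3
  have j5 : x⁻¹ * (K + 2 * k + 8) ≤ 1 := by
    rw [inv_mul_le_iff₀ hx0, mul_one]; exact hxL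
  have j7 : k * (x ^ 8)⁻¹ ≤ k * x⁻¹ := mul_le_mul_of_nonneg_left j1 hk
  have j8 : K * (x * (x ^ 4)⁻¹) ≤ K * x⁻¹ := mul_le_mul_of_nonneg_left j2 hK
  have j9 : k * (x * (x ^ 8)⁻¹) ≤ k * x⁻¹ := mul_le_mul_of_nonneg_left j4 hk
  have e6 : k * (x ^ 8)⁻¹ + x * (K * (x ^ 4)⁻¹ + (x ^ 2)⁻¹ + k * (x ^ 8)⁻¹) + 4 * x⁻¹ ^ 2 =
      k * (x ^ 8)⁻¹ + K * (x * (x ^ 4)⁻¹) + x * (x ^ 2)⁻¹ + k * (x * (x ^ 8)⁻¹) + 4 * x⁻¹ ^ 2 := by
    ring
  rw [e6, j3]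
  calc _ ≤ k * x⁻¹ + K * x⁻¹ + x⁻¹ + k * x⁻¹ + 4 * x⁻¹ := by linarith
    _ ≤ x⁻¹ * (K + 2 * k + 8) := by linarith
    _ ≤ 1 := j5

/-- the numerical conditions for large primes -/
lemma numerG (K k p : ℝ) (hK : 0 ≤ K) (hk : 0 ≤ k) (hp1 : 1 ≤ p)
    (hL : (K + 2 * k + 8) ^ 16 ≤ p) :
    2 ≤ p * p ^ (-(1 / 8) : ℝ) ∧ p ^ (1 / 16 : ℝ) * p ^ (-(1 / 8) : ℝ) ≤ 1 / 2 ∧
    K * p ^ (3 / 4 : ℝ) / p ≤ p ^ (-(1 / 8) : ℝ) ∧
    2 * ((k * Real.sqrt p + 2) / p) ≤ p ^ (-(1 / 8) : ℝ) ∧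
    k * Real.sqrt p / p + p ^ (1 / 16 : ℝ) * (K * p ^ (3 / 4 : ℝ) / p + p ^ (-(1 / 8) : ℝ) +
      k * Real.sqrt p / p) + 4 * (p ^ (1 / 16 : ℝ) * p ^ (-(1 / 8) : ℝ)) ^ 2 ≤ 1 := by
  have hp0 : 0 < p := by linarith
  obtain ⟨x, hx⟩ : ∃ x : ℝ, x = p ^ (1 / 16 : ℝ) := ⟨_, rfl⟩
  have hx0 : 0 < x := by rw [hx]; exact Real.rpow_pos_of_pos hp0 _
  have hpx : p = x ^ 16 := by
    rw [hx, ← Real.rpow_natCast, ← Real.rpow_mul hp0.le]
    norm_num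
  have h1 : p ^ (3 / 4 : ℝ) = x ^ 12 := by
    rw [hx, ← Real.rpow_natCast, ← Real.rpow_mul hp0.le]
    norm_num
  have h2 : p ^ (-(1 / 8) : ℝ) = (x ^ 2)⁻¹ := by
    rw [hx, ← Real.rpow_natCast, ← Real.rpow_mul hp0.le, ← Real.rpow_neg hp0.le]
    norm_num
  have h3 : Real.sqrt p = x ^ 8 := by
    rw [hpx, show x ^ 16 = (x ^ 8) ^ 2 by ring, Real.sqrt_sq (by positivity)]
  rw [h1, h2, h3, ← hx]
  clear h1 h2 h3 hx
  subst hpx
  have hxL : K + 2 * k + 8 ≤ x := le_of_pow_le_pow_left₀ (by norm_num) hx0.le hL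
  have e1 : K * x ^ 12 / x ^ 16 = K * (x ^ 4)⁻¹ := by field_simp
  have e2 : k * x ^ 8 / x ^ 16 = k * (x ^ 8)⁻¹ := by field_simp
  have e3 : x * (x ^ 2)⁻¹ = x⁻¹ := by field_simp
  have e4 : x ^ 16 * (x ^ 2)⁻¹ = x ^ 14 := by field_simp
  obtain ⟨n1, n2, n3, n4⟩ := numerX1 K k x hK hk hxL
  have n5 := numerX2 K k x hK hk hxL
  rw [e1, e2, e3, e4]
  refine ⟨n1, n2, n3, ?_, n5⟩
  rw [← mul_div_assoc, div_le_iff₀ (by positivity), mul_comm _ (x ^ 16), e4]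
  linarith

/-- local weights at all large good primes -/
theorem locP_good (hEW : EvenWeightG) (h : ℤ[X]) (hk : 2 ≤ h.natDegree)
    (hpos : 0 < h.leadingCoeff) : ∃ p0 : ℕ, ∀ (p : ℕ) [Fact p.Prime], p0 ≤ p → GoodPrime h p →
      ∃ v : ℕ → ℤ → ℝ, LocP h p v 2 1 (1 / 16) := by
  obtain ⟨K, P0, hK, hEW⟩ := hEW h.natDegree hk
  have hh0 : h ≠ 0 := by rintro rfl; simp at hk
  obtain ⟨P1, hP1⟩ := g5 h hh0
  set k := h.natDegree with hkdef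
  obtain ⟨L, hL⟩ := exists_nat_ge ((K + 2 * (k : ℝ) + 8) ^ 16)
  refine ⟨P0 + P1 + (k + 1) + (h.leadingCoeff.natAbs + 1) + L, fun p _ hpp hgood => ?_⟩
  have hp : p.Prime := Fact.out
  obtain ⟨z, u, hz, hu⟩ := hgood
  set φ := Int.castRingHom ℤ_[p] with hφ
  have hφi : Function.Injective φ := by
    rw [hφ]; exact (Int.cast_injective : Function.Injective (Int.cast : ℤ → ℤ_[p]))
  have hmap0 : h.map φ ≠ 0 := (Polynomial.map_ne_zero_iff hφi).2 hh0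
  set m := (h.map φ).rootMultiplicity z with hm
  have hm1 : 1 ≤ m := (rootMultiplicity_pos hmap0).2 hz
  obtain ⟨q, hq, hnd⟩ := exists_eq_pow_rootMultiplicity_mul_and_not_dvd _ hmap0 z
  rw [← hm] at hq
  have hqz : q.eval z ≠ 0 := fun h5 => hnd (dvd_iff_isRoot.2 h5)
  have hqu : IsUnit (q.eval z) := hP1 p (by omega) z m q hm1 hq hqz
  have hq0 : q ≠ 0 := by rintro rfl; simp at hqz
  have hmk : m ≤ k := by
    have h1 : (h.map φ).natDegree = k := natDegree_map_eq_of_injective hφi h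
    rw [hq, ((monic_X_sub_C z).pow m).natDegree_mul' hq0, natDegree_pow, natDegree_X_sub_C] at h1
    omega
  have hR := rootM_of h p z m q hq hqu
  -- reduction modulo `p`
  set ψ := PadicInt.toZMod (p := p) with hψ
  set r : ZMod p := ψ z with hr
  set ζ : ZMod p := ψ u with hζ
  have hζm : ζ ^ m = -1 := by
    rw [hζ, ← map_pow, hu, map_neg, map_one]
  have hcomp : ψ.comp φ = Int.castRingHom (ZMod p) := RingHom.ext_int _ _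
  have hred : h.map (Int.castRingHom (ZMod p)) = (X - C r) ^ m * q.map ψ := by
    have h2 := congrArg (Polynomial.map ψ) hq
    rw [Polynomial.map_map, hcomp, Polynomial.map_mul, Polynomial.map_pow, Polynomial.map_sub,
      map_X, map_C] at h2
    exact h2
  have hqr : (q.map ψ).eval r ≠ 0 := by
    rw [hr, Polynomial.eval_map_apply]
    exact (hqu.map ψ).ne_zero
  have hqr0 : q.map ψ ≠ 0 := by
    intro h0; rw [h0, eval_zero] at hqr; exact hqr rfl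
  have hmult : (h.map (Int.castRingHom (ZMod p))).rootMultiplicity r = m := by
    rw [hred, mul_comm, rootMultiplicity_mul_X_sub_C_pow hqr0, rootMultiplicity_eq_zero hqr,
      zero_add]
  have hlc : (Int.castRingHom (ZMod p)) h.leadingCoeff ≠ 0 := by
    intro h0
    rw [eq_intCast, ZMod.intCast_zmod_eq_zero_iff_dvd] at h0
    have h2 := Nat.le_of_dvd (Nat.pos_of_ne_zero (Int.natAbs_ne_zero.2 (by omega)))
      (Int.natCast_dvd.1 h0)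
    omega
  have hdeg : (h.map (Int.castRingHom (ZMod p))).natDegree = k :=
    natDegree_map_of_leadingCoeff_ne_zero _ hlc
  obtain ⟨ν, hν0, hνK, hνs, hνd, hνim, hνb⟩ := hEW p (by omega)
    (h.map (Int.castRingHom (ZMod p))) r ζ m hdeg hmult hm1 hζm
  have hp1 : (1 : ℝ) ≤ p := by exact_mod_cast hp.one_lt.le
  have hLp : (K + 2 * (k : ℝ) + 8) ^ 16 ≤ p := by
    refine hL.trans ?_
    have : L ≤ p := by omega
    exact_mod_cast this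
  obtain ⟨n1, n2, n3, n4, n5⟩ := numerG K k p hK (by positivity) hp1 hLp
  have hKp : K + 1 ≤ p := by
    refine le_trans ?_ hLp
    have hk0 : (0 : ℝ) ≤ k := by positivity
    have h1 : (1 : ℝ) ≤ K + 2 * (k : ℝ) + 8 := by linarith
    refine le_trans ?_ (le_self_pow₀ h1 (by norm_num))
    linarith
  have hw0 : 0 ≤ (p : ℝ) ^ (-(1 / 8) : ℝ) := by positivity
  have hw1 : (p : ℝ) ^ (-(1 / 8) : ℝ) ≤ 1 :=
    Real.rpow_le_one_of_one_le_of_nonpos hp1 (by norm_num)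
  refine ⟨vl p ν (fun i => (z.appr i : ℤ)) ((p : ℝ) ^ (-(1 / 8) : ℝ)), ?_⟩
  exact locP_large_m hR hm1 hζm k hmk le_rfl (by omega) (by unfold NC; omega) K hK hKp hν0 hνK hνs
    hνd hνim hνb hw0 hw1 n1 n2 n3 n4 n5

end Vale.Agent.P042.WG
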