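import Vale.Agent.P042.WG.G6.Large
import Vale.Agent.P042.WG.Spec
import Mathlib.NumberTheory.Padics.RingHoms
set_option autoImplicit false

/-! Block G6: approximations of a `p`-adic root of multiplicity `m`. -/

namespace Vale.Agent.P042.WG

open Polynomial

lemma int_comp (p : ℕ) [Fact p.Prime] (N : ℕ) :
    (PadicInt.toZModPow (p := p) N).comp (Int.castRingHom ℤ_[p]) = Int.castRingHom (ZMod (p ^ N)) :=
  RingHom.ext_int _ _

lemma toZModPow_appr (p : ℕ) [Fact p.Prime] (N : ℕ) (z : ℤ_[p]) :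
    PadicInt.toZModPow (p := p) N z = ((z.appr N : ℤ) : ZMod (p ^ N)) := by
  have h1 : z - (z.appr N : ℤ_[p]) ∈ RingHom.ker (PadicInt.toZModPow (p := p) N) := by
    rw [PadicInt.ker_toZModPow]
    exact PadicInt.appr_spec N z
  rw [RingHom.mem_ker, map_sub, map_natCast, sub_eq_zero] at h1
  rw [h1]
  push_cast
  rfl

lemma appr_comp (p : ℕ) [Fact p.Prime] (z : ℤ_[p]) (i N : ℕ) (hiN : i ≤ N) :
    (p : ℤ) ^ i ∣ (z.appr N : ℤ) - (z.appr i : ℤ) := by
  rw [← PadicInt.pow_p_dvd_int_iff]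
  have h3 : (p : ℤ_[p]) ^ i ∣ z - (z.appr i : ℤ_[p]) :=
    Ideal.mem_span_singleton.1 (PadicInt.appr_spec i z)
  have h4 : (p : ℤ_[p]) ^ N ∣ z - (z.appr N : ℤ_[p]) :=
    Ideal.mem_span_singleton.1 (PadicInt.appr_spec N z)
  have h5 : (((z.appr N : ℤ) - (z.appr i : ℤ) : ℤ) : ℤ_[p]) =
      (z - (z.appr i : ℤ_[p])) - (z - (z.appr N : ℤ_[p])) := by
    push_cast
    ring
  rw [h5]
  exact dvd_sub h3 ((pow_dvd_pow _ hiN).trans h4)

lemma rootM_of (h : ℤ[X]) (p : ℕ) [Fact p.Prime] (z : ℤ_[p]) (m : ℕ) (q : ℤ_[p][X])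
    (hq : h.map (Int.castRingHom ℤ_[p]) = (X - C z) ^ m * q) (hu : IsUnit (q.eval z)) :
    RootM h p m (fun i => (z.appr i : ℤ)) := by
  have hp : p.Prime := Fact.out
  refine ⟨fun i N hiN => appr_comp p z i N hiN, fun N hN => ?_⟩
  set π := PadicInt.toZModPow (p := p) N with hπ
  set φ := Int.castRingHom (ZMod (p ^ N)) with hφ
  obtain ⟨Q, hQ⟩ := Polynomial.map_surjective φ ZMod.intCast_surjective (q.map π)
  have h1 : h.map φ = (X - C (((z.appr N : ℤ)) : ZMod (p ^ N))) ^ m * Q.map φ := by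
    have h2 := congrArg (Polynomial.map π) hq
    rw [Polynomial.map_map, int_comp, Polynomial.map_mul, Polynomial.map_pow, Polynomial.map_sub,
      map_X, map_C, hπ, toZModPow_appr, ← hπ, ← hQ] at h2
    exact h2
  refine ⟨Q, fun x => ?_, ?_⟩
  · have h2 := congrArg (fun f : (ZMod (p ^ N))[X] => f.eval (x : ZMod (p ^ N))) h1
    beta_reduce at h2
    rw [eval_mul, eval_pow, eval_sub, eval_X, eval_C, hφ, eval_intCast_map, eval_intCast_map] at h2
    have h3 : (((p ^ N : ℕ)) : ℤ) ∣ h.eval x - (x - (z.appr N : ℤ)) ^ m * Q.eval x := by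
      rw [← ZMod.intCast_zmod_eq_zero_iff_dvd]
      push_cast
      simp only [eq_intCast, Int.cast_id] at h2
      rw [h2]
      push_cast
      ring
    push_cast at h3
    exact h3
  · intro h2
    have h3 : IsUnit (π (q.eval z)) := hu.map π
    have h4 : π (q.eval z) = ((Q.eval (z.appr N : ℤ) : ℤ) : ZMod (p ^ N)) := by
      rw [← Polynomial.eval_map_apply, ← hQ, hπ, toZModPow_appr, hφ, eval_intCast_map]
      simp
    have hdvd : p ∣ p ^ N := dvd_pow_self p (by omega)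
    have h5 := h3.map (ZMod.castHom hdvd (ZMod p))
    rw [h4, map_intCast, (ZMod.intCast_zmod_eq_zero_iff_dvd _ p).2 h2] at h5
    exact not_isUnit_zero h5

end Vale.Agent.P042.WG
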