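import Vale.Agent.P042.WA.W5.Large
import Vale.Agent.P042.WA.W4.Fourier
set_option autoImplicit false

/-! Block G6: shells around a multiple root. -/

namespace Vale.Agent.P042.WG

open Polynomial Finset
open Vale.Agent.P042.PS748 (Per class_mean sum_affine mn_dvd sum_mul_range)
open Vale.Agent.P042.WA.W5 (ph ph_per norm_ph ph_one fib_zero cls mn_cls norm_GG_le mn_const
  ep_eq_std)
open Vale.Agent.P042.WA (ep)

/-- compatible approximations of a `p`-adic root of multiplicity `m` whose cofactor is a unit -/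
structure RootM (h : ℤ[X]) (p m : ℕ) (r : ℕ → ℤ) : Prop where
  comp : ∀ i N : ℕ, i ≤ N → (p : ℤ) ^ i ∣ r N - r i
  fac : ∀ N : ℕ, 1 ≤ N → ∃ q : ℤ[X], (∀ x : ℤ, (p : ℤ) ^ N ∣ h.eval x - (x - r N) ^ m * q.eval x) ∧
    ¬ (p : ℤ) ∣ q.eval (r N)

variable {h : ℤ[X]} {p m : ℕ} {r : ℕ → ℤ}

lemma GG_congr (h : ℤ[X]) (hp : p.Prime) (a : ℤ) (i j : ℕ) {r s : ℤ} (hrs : (p : ℤ) ^ i ∣ s - r) :
    WA.W5.GG h p a i j r = WA.W5.GG h p a i j s := by
  rw [← mn_cls h p hp a i i j le_rfl r, ← mn_cls h p hp a i i j le_rfl s]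
  congr 1
  funext x
  unfold cls
  have : ((p : ℤ) ^ i ∣ x - r) ↔ ((p : ℤ) ^ i ∣ x - s) := by
    rw [show x - r = (x - s) + (s - r) by ring]
    exact dvd_add_left hrs
  simp only [this]

lemma GGm_one (hR : RootM h p m r) (hp : p.Prime) (a : ℤ) (i j : ℕ) (hij : j ≤ m * i) :
    WA.W5.GG h p a i j (r i) = 1 := by
  have hpj : 1 ≤ p ^ j := Nat.one_le_pow _ _ hp.pos
  apply mn_const _ hpj
  intro y
  apply ph_one h a _ hpj
  obtain ⟨q, hq, _⟩ := hR.fac (i + j + 1) (by omega)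
  have h1 := hq (r i + (p : ℤ) ^ i * y)
  have h2 : (p : ℤ) ^ i ∣ (r i + (p : ℤ) ^ i * y) - r (i + j + 1) := by
    have := hR.comp i (i + j + 1) (by omega)
    rw [show (r i + (p : ℤ) ^ i * y) - r (i + j + 1) = (p : ℤ) ^ i * y - (r (i + j + 1) - r i) by ring]
    exact dvd_sub (Dvd.intro _ rfl) this
  have h3 : (p : ℤ) ^ j ∣ ((r i + (p : ℤ) ^ i * y) - r (i + j + 1)) ^ m *
      q.eval (r i + (p : ℤ) ^ i * y) := by
    apply Dvd.dvd.mul_right
    have h4 : (p : ℤ) ^ j ∣ ((p : ℤ) ^ i) ^ m := by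
      rw [← pow_mul]
      exact pow_dvd_pow _ (by rwa [mul_comm] at hij)
    exact h4.trans (pow_dvd_pow_of_dvd h2 m)
  have h5 : (p : ℤ) ^ j ∣ (p : ℤ) ^ (i + j + 1) := pow_dvd_pow _ (by omega)
  push_cast
  have h6 := dvd_add (h5.trans h1) h3
  rwa [sub_add_cancel] at h6

/-- splitting a mean into residue classes modulo `p` -/
lemma mn_split (hp : p.Prime) (L : ℕ) (hL : 1 ≤ L) (g : ℤ → ℂ) (hg : Per L g) :
    PS748.mn L g = (∑ b ∈ range p, PS748.mn L (fun y => g ((b : ℤ) + (p : ℤ) * y))) / p := by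
  have h1 : PS748.mn L g = PS748.mn (p * L) g := by
    rw [mn_dvd (Nat.mul_pos hp.pos hL) (Dvd.intro_left _ rfl) hg]
  rw [h1]
  unfold PS748.mn
  rw [sum_mul_range p L g, Finset.sum_comm, ← Finset.sum_div]
  push_cast
  rw [div_div, mul_comm]

/-- the character sum over the nonzero residues -/
noncomputable def SS (p m : ℕ) (c : ℤ) : ℂ :=
  (∑ b ∈ (range p).erase 0, e (((c * (b : ℤ) ^ m : ℤ) : ℝ) / p)) / p

lemma SS_eq [Fact p.Prime] (m : ℕ) (c : ℤ) :
    SS p m c = (∑ b ∈ (univ : Finset (ZMod p)).erase 0, ep p ((c : ZMod p) * b ^ m)) / p := by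
  have hp : p.Prime := Fact.out
  unfold SS
  congr 1
  refine Finset.sum_bij' (fun b _ => (b : ZMod p)) (fun b _ => b.val) ?_ ?_ ?_ ?_ ?_
  · intro b hb
    rw [Finset.mem_erase, Finset.mem_range] at hb
    rw [Finset.mem_erase]
    refine ⟨?_, Finset.mem_univ _⟩
    intro h0
    rw [ZMod.natCast_eq_zero_iff] at h0
    have := Nat.le_of_dvd (by omega) h0
    omega
  · intro b hb
    rw [Finset.mem_erase] at hb
    rw [Finset.mem_erase, Finset.mem_range]
    exact ⟨fun h0 => hb.1 ((ZMod.val_eq_zero b).1 h0), ZMod.val_lt b⟩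
  · intro b hb
    rw [Finset.mem_erase, Finset.mem_range] at hb
    exact ZMod.val_cast_of_lt hb.2
  · intro b _
    exact ZMod.natCast_zmod_val b
  · intro b _
    rw [e_eq_std, ep_eq_std]
    push_cast
    rfl

lemma SS_im [Fact p.Prime] (m : ℕ) (hm : 1 ≤ m) (c : ℤ) (ζ : ZMod p) (hζ : ζ ^ m = -1) :
    (SS p m c).im = 0 := by
  have hp : p.Prime := Fact.out
  have hζ0 : ζ ≠ 0 := by
    rintro rfl
    rw [zero_pow (by omega)] at hζ
    exact one_ne_zero (α := ZMod p) (neg_eq_zero.1 hζ.symm)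
  rw [SS_eq, Complex.div_natCast_im]
  rw [div_eq_zero_iff]
  left
  rw [← Complex.conj_eq_iff_im, map_sum]
  refine Finset.sum_bij' (fun b _ => ζ * b) (fun b _ => ζ⁻¹ * b) ?_ ?_ ?_ ?_ ?_
  · intro b hb
    rw [Finset.mem_erase] at hb ⊢
    exact ⟨mul_ne_zero hζ0 hb.1, Finset.mem_univ _⟩
  · intro b hb
    rw [Finset.mem_erase] at hb ⊢
    exact ⟨mul_ne_zero (inv_ne_zero hζ0) hb.1, Finset.mem_univ _⟩
  · intro b _
    rw [← mul_assoc, inv_mul_cancel₀ hζ0, one_mul]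
  · intro b _
    rw [← mul_assoc, mul_inv_cancel₀ hζ0, one_mul]
  · intro b _
    rw [mul_pow, hζ, WA.W4P.ep_conj]
    congr 1
    ring

lemma SS_norm [Fact p.Prime] (m k : ℕ) (hm : 1 ≤ m) (hmk : m ≤ k) (hkp : k < p) (c : ℤ)
    (hc : ¬ (p : ℤ) ∣ c) : ‖SS p m c‖ ≤ (k * Real.sqrt p + 1) / p := by
  have hp : p.Prime := Fact.out
  have hp0 : (0 : ℝ) < p := by exact_mod_cast hp.pos
  have hc' : ((c : ℤ) : ZMod p) ≠ 0 := by
    rw [Ne, ZMod.intCast_zmod_eq_zero_iff_dvd]; exact hc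
  set H : ℤ[X] := C c * X ^ m with hH
  have hdeg : H.natDegree ≤ k := (natDegree_C_mul_X_pow_le c m).trans hmk
  have hnc : NC H p := by
    unfold NC
    rw [hH, Polynomial.map_mul, Polynomial.map_pow, map_C, map_X, eq_intCast,
      natDegree_C_mul_X_pow m _ hc']
    exact hm
  have h1 := ecs_prime H k p hdeg hkp hnc 1 (by
    intro h0
    have := Int.isUnit_iff.1 (isUnit_of_dvd_one h0)
    have := hp.two_le
    omega)
  have h2 : ecs H 1 p = ∑ b : ZMod p, ep p ((c : ZMod p) * b ^ m) := by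
    unfold ecs
    refine Finset.sum_congr rfl fun x _ => ?_
    rw [ep_eq_std, hH]
    congr 1
    simp
  rw [SS_eq, norm_div, Complex.norm_natCast]
  apply div_le_div_of_nonneg_right _ hp0.le
  have h3 : ∑ b ∈ (univ : Finset (ZMod p)).erase 0, ep p ((c : ZMod p) * b ^ m) =
      ∑ b : ZMod p, ep p ((c : ZMod p) * b ^ m) - ep p ((c : ZMod p) * 0 ^ m) := by
    rw [← Finset.sum_erase_add _ _ (Finset.mem_univ (0 : ZMod p)), add_sub_cancel_right]
  rw [h3, ← h2]
  refine (norm_sub_le _ _).trans (add_le_add h1 ?_)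
  rw [WA.W4P.ep_norm]

lemma e_congr_mod [Fact p.Prime] (u w : ℤ) (h : (p : ℤ) ∣ u - w) :
    e ((u : ℝ) / p) = e ((w : ℝ) / p) := by
  rw [e_eq_std, e_eq_std]
  congr 1
  rw [← sub_eq_zero, ← Int.cast_sub, ZMod.intCast_zmod_eq_zero_iff_dvd]
  exact h

/-- the recursion between consecutive balls -/
lemma GG_rec [Fact p.Prime] (hR : RootM h p m r) (hm : 1 ≤ m) (hmp : m < p) (a : ℤ)
    (ha : IsCoprime a (p : ℤ)) (i j : ℕ) (hi : 1 ≤ i) (hij : m * i < j) :
    ∃ c : ℤ, ¬ (p : ℤ) ∣ c ∧ WA.W5.GG h p a i j (r i) =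
      (if j = m * i + 1 then SS p m c else 0) + WA.W5.GG h p a (i + 1) j (r (i + 1)) / p := by
  have hp : p.Prime := Fact.out
  have hpZ : Prime (p : ℤ) := Nat.prime_iff_prime_int.1 hp
  have hp0 : (p : ℝ) ≠ 0 := by exact_mod_cast hp.ne_zero
  have hpC : (p : ℂ) ≠ 0 := by exact_mod_cast hp.ne_zero
  set N := i + j + 1 with hN
  obtain ⟨q, hq, hqR⟩ := hR.fac N (by omega)
  set R := r N with hRdef
  obtain ⟨n, hn⟩ : ∃ n, j = m * i + n := ⟨j - m * i, by omega⟩
  have hn1 : 1 ≤ n := by omega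
  set G : ℤ[X] := X ^ m * q.comp (C R + C ((p : ℤ) ^ i) * X) with hG
  have hGe : ∀ y : ℤ, G.eval y = y ^ m * q.eval (R + (p : ℤ) ^ i * y) := by
    intro y
    rw [hG]
    simp [eval_comp]
  have ha' : ¬ (p : ℤ) ∣ a := by
    intro h1
    have h2 := ha.symm.isUnit_of_dvd' dvd_rfl h1
    rw [Int.isUnit_iff] at h2
    have := hp.two_le
    omega
  refine ⟨a * q.eval R, ?_, ?_⟩
  · intro h1
    rcases hpZ.dvd_or_dvd h1 with h2 | h2
    · exact ha' h2
    · exact hqR h2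
  have hpn : 1 ≤ p ^ n := Nat.one_le_pow _ _ hp.pos
  have hpj : 1 ≤ p ^ j := Nat.one_le_pow _ _ hp.pos
  -- the phase in terms of `G`
  have hph : ∀ y : ℤ, ph h a (p ^ j) (R + (p : ℤ) ^ i * y) = ph G a (p ^ n) y := by
    intro y
    obtain ⟨t, ht⟩ := hq (R + (p : ℤ) ^ i * y)
    have h1 : h.eval (R + (p : ℤ) ^ i * y) = (p : ℤ) ^ (m * i) * G.eval y + (p : ℤ) ^ N * t := by
      rw [hGe, ← ht]
      rw [show (R + (p : ℤ) ^ i * y - r N) = (p : ℤ) ^ i * y by rw [hRdef]; ring, mul_pow, ← pow_mul,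
        mul_comm i m]
      ring
    unfold ph
    rw [h1]
    have h2 : (a : ℝ) * (((p : ℤ) ^ (m * i) * G.eval y + (p : ℤ) ^ N * t : ℤ) : ℝ) /
        ((p ^ j : ℕ) : ℝ) = (a : ℝ) * ((G.eval y : ℤ) : ℝ) / ((p ^ n : ℕ) : ℝ) +
        ((a * (p : ℤ) ^ (i + 1) * t : ℤ) : ℝ) := by
      have h3 : (p : ℝ) ^ N = (p : ℝ) ^ j * (p : ℝ) ^ (i + 1) := by
        rw [← pow_add]; congr 1; omega
      have h4 : (p : ℝ) ^ j = (p : ℝ) ^ (m * i) * (p : ℝ) ^ n := by rw [← pow_add, hn]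
      push_cast
      rw [h3, h4]
      field_simp
    rw [h2, e_add, e_int, mul_one]
  have hGper := ph_per G a (p ^ n) hpn
  have h1 : WA.W5.GG h p a i j (r i) = PS748.mn (p ^ n) (ph G a (p ^ n)) := by
    rw [GG_congr h hp a i j (hR.comp i N (by omega))]
    unfold WA.W5.GG
    have : (fun y => ph h a (p ^ j) (r N + (p : ℤ) ^ i * y)) = ph G a (p ^ n) := by
      funext y; exact hph y
    rw [this]
    exact mn_dvd hpj (pow_dvd_pow p (by omega)) hGper
  have h2 : WA.W5.GG h p a (i + 1) j (r (i + 1)) =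
      PS748.mn (p ^ n) (fun y => ph G a (p ^ n) (((0 : ℕ) : ℤ) + (p : ℤ) * y)) := by
    rw [GG_congr h hp a (i + 1) j (hR.comp (i + 1) N (by omega))]
    unfold WA.W5.GG
    have : (fun y => ph h a (p ^ j) (r N + (p : ℤ) ^ (i + 1) * y)) =
        fun y => ph G a (p ^ n) (((0 : ℕ) : ℤ) + (p : ℤ) * y) := by
      funext y
      rw [← hph]
      congr 1
      rw [← hRdef]
      push_cast
      ring
    rw [this]
    apply mn_dvd hpj (pow_dvd_pow p (by omega))
    intro y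
    apply hGper.congr
    exact ⟨p, by push_cast; ring⟩
  rw [h1, mn_split hp (p ^ n) hpn _ hGper]
  rw [← Finset.add_sum_erase _ _ (Finset.mem_range.2 hp.pos), ← h2]
  rw [add_comm, add_div]
  congr 1
  -- the classes away from zero
  have hqmod : ∀ y : ℤ, (p : ℤ) ∣ q.eval (R + (p : ℤ) ^ i * y) - q.eval R := by
    intro y
    have h3 := Polynomial.sub_dvd_eval_sub (R + (p : ℤ) ^ i * y) R q
    refine dvd_trans ?_ h3
    rw [add_sub_cancel_left]
    exact (dvd_pow_self _ (by omega)).mul_right _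
  split_ifs with hj
  · have hn' : n = 1 := by omega
    subst hn'
    unfold SS
    congr 1
    refine Finset.sum_congr rfl fun b _ => ?_
    have h4 : PS748.mn (p ^ 1) (fun y => ph G a (p ^ 1) ((b : ℤ) + (p : ℤ) * y)) =
        ph G a (p ^ 1) (b : ℤ) := by
      apply mn_const _ hpn
      intro y
      apply hGper.congr
      push_cast
      exact ⟨y, by ring⟩
    rw [h4]
    unfold ph
    rw [pow_one]
    have h5 : (a : ℝ) * ((G.eval (b : ℤ) : ℤ) : ℝ) / (p : ℝ) = ((a * G.eval (b : ℤ) : ℤ) : ℝ) / p := by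
      push_cast; ring
    rw [h5]
    apply e_congr_mod
    rw [hGe]
    obtain ⟨t, ht⟩ := hqmod (b : ℤ)
    exact ⟨a * (b : ℤ) ^ m * t, by linear_combination (a * (b : ℤ) ^ m) * ht⟩
  · rw [div_eq_zero_iff]
    left
    refine Finset.sum_eq_zero fun b hb => ?_
    rw [Finset.mem_erase, Finset.mem_range] at hb
    have h4 := fib_zero G p hp (b : ℤ) 1 0 n le_rfl (by omega) ?_ a ha
    · rw [pow_one] at h4
      exact h4
    · rw [zero_add, pow_one]
      intro h5
      have h6 : (derivative G).eval (b : ℤ) = (m : ℤ) * (b : ℤ) ^ (m - 1) *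
          q.eval (R + (p : ℤ) ^ i * b) + (b : ℤ) ^ m * ((derivative q).eval (R + (p : ℤ) ^ i * b) *
            (p : ℤ) ^ i) := by
        rw [hG, derivative_mul, derivative_X_pow, derivative_comp, derivative_add, derivative_C,
          derivative_C_mul, derivative_X]
        simp only [eval_add, eval_mul, eval_comp, eval_C, eval_pow, eval_X, zero_add, mul_one]
        ring
      have h7 : (p : ℤ) ∣ (b : ℤ) ^ m * ((derivative q).eval (R + (p : ℤ) ^ i * b) *
            (p : ℤ) ^ i) :=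
        ((dvd_pow_self _ (by omega)).mul_left _).mul_left _
      rw [h6] at h5
      have h8 := (dvd_add_left h7).1 h5
      have hb' : ¬ (p : ℤ) ∣ (b : ℤ) := by
        intro h9
        have h10 : p ∣ b := by exact_mod_cast h9
        have := Nat.le_of_dvd (by omega) h10
        omega
      have hm' : ¬ (p : ℤ) ∣ (m : ℤ) := by
        intro h9
        have h10 : p ∣ m := by exact_mod_cast h9
        have := Nat.le_of_dvd (by omega) h10
        omega
      rcases hpZ.dvd_or_dvd h8 with h9 | h9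
      · rcases hpZ.dvd_or_dvd h9 with h10 | h10
        · exact hm' h10
        · exact hb' (hpZ.dvd_of_dvd_pow h10)
      · apply hqR
        have h10 := dvd_sub h9 (hqmod (b : ℤ))
        rwa [sub_sub_cancel] at h10

end Vale.Agent.P042.WG
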